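import Mathlib

set_option autoImplicit false

/-!
# Core lemma for the comparison of two joint minimum cuts (helper378)
-/

namespace Vale.Agent.P038.H378

open Finset
open scoped Classical

variable {V : Type} [Fintype V]

/-- closed neighbourhood of a set: everything related to an element of `S` -/
noncomputable def cl (A : V → V → Prop) (S : Finset V) : Finset V :=
  univ.filter (fun y => ∃ x ∈ S, A x y)

/-- intersection of the sets `U s` over all `s` with `A s a` -/
noncomputable def icap (A : V → V → Prop) (U : V → Finset V) (a : V) : Finset V :=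
  univ.filter (fun y => ∀ s, A s a → y ∈ U s)

lemma mem_cl {A : V → V → Prop} {S : Finset V} {y : V} :
    y ∈ cl A S ↔ ∃ x ∈ S, A x y := by
  simp [cl]

lemma mem_icap {A : V → V → Prop} {U : V → Finset V} {a y : V} :
    y ∈ icap A U a ↔ ∀ s, A s a → y ∈ U s := by
  simp [icap]

lemma cl_mono {A : V → V → Prop} {S T : Finset V} (h : S ⊆ T) : cl A S ⊆ cl A T := by
  intro y hy
  rw [mem_cl] at hy ⊢
  obtain ⟨x, hx, hxy⟩ := hy
  exact ⟨x, h hx, hxy⟩

/-- the monotone closure (from above) of a set function -/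
noncomputable def hat (f : Finset V → ℤ) (G S : Finset V) : ℤ :=
  G.powerset.inf' ⟨∅, empty_mem_powerset G⟩ (fun K => f (S ∪ K))

lemma hat_le {f : Finset V → ℤ} {G S K : Finset V} (hK : K ⊆ G) :
    hat f G S ≤ f (S ∪ K) := by
  unfold hat
  exact inf'_le (fun K => f (S ∪ K)) (mem_powerset.2 hK)

lemma hat_exists (f : Finset V → ℤ) (G S : Finset V) :
    ∃ K ⊆ G, hat f G S = f (S ∪ K) := by
  unfold hat
  obtain ⟨K, hK, h⟩ := exists_mem_eq_inf' (s := G.powerset) ⟨∅, empty_mem_powerset G⟩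
    (fun K => f (S ∪ K))
  exact ⟨K, mem_powerset.1 hK, h⟩

lemma hat_mono {f : Finset V → ℤ} {G S S' : Finset V} (h : S ⊆ S') (h' : S' ⊆ G) :
    hat f G S ≤ hat f G S' := by
  obtain ⟨K, hK, hKe⟩ := hat_exists f G S'
  rw [hKe]
  have h1 : S ∪ (S' ∪ K) = S' ∪ K := by
    rw [← union_assoc, union_eq_right.2 h]
  have h2 := hat_le (f := f) (S := S) (union_subset h' hK : S' ∪ K ⊆ G)
  rwa [h1] at h2

lemma hat_empty {f : Finset V → ℤ} {G : Finset V} (hf : ∀ K ⊆ G, 0 ≤ f K) (h0 : f ∅ = 0) :
    hat f G ∅ = 0 := by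
  apply le_antisymm
  · have := hat_le (f := f) (S := ∅) (empty_subset G)
    simpa [h0] using this
  · obtain ⟨K, hK, hKe⟩ := hat_exists f G ∅
    rw [hKe, empty_union]
    exact hf K hK

lemma hat_full {f : Finset V → ℤ} {G : Finset V} : hat f G G = f G := by
  obtain ⟨K, hK, hKe⟩ := hat_exists f G G
  rw [hKe, union_eq_left.2 hK]

/-- excess function -/
noncomputable def hf (A : V → V → Prop) (b T : Finset V) : ℤ :=
  ((cl A T \ b).card : ℤ) - T.card

lemma hf_empty (A : V → V → Prop) (b : Finset V) : hf A b ∅ = 0 := by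
  simp [hf, cl]

/-- step (4) -/
lemma key {A : V → V → Prop} {b q B G G1 S S' : Finset V} {x : V}
    (hqb : q ⊆ b) (hBb : cl A B ⊆ b) (hG1 : G1 ⊆ G ∪ B)
    (hxG : x ∈ G) (hxG1 : x ∈ G1) (hS : S ⊆ G1) (hSG : S ∩ G ⊆ S') (hS' : S' ⊆ G) :
    hat (hf A b) G (insert x S') - hat (hf A b) G S' ≤
      hat (hf A q) G1 (insert x S) - hat (hf A q) G1 S := by
  obtain ⟨R0, hR0, hR0e⟩ := hat_exists (hf A q) G1 (insert x S)
  obtain ⟨K0, hK0, hK0e⟩ := hat_exists (hf A b) G S'
  set R := insert x S ∪ R0 with hR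
  set K := S' ∪ K0 with hK
  have hRG1 : R ⊆ G1 := union_subset (insert_subset hxG1 hS) hR0
  have hKG : K ⊆ G := union_subset hS' hK0
  set E := (R ∩ G) \ K with hE
  set R' := R \ E with hR'
  have hxR : x ∈ R := mem_union_left _ (mem_insert_self x S)
  have hER : E ⊆ R := fun z hz => (mem_inter.1 (mem_sdiff.1 hz).1).1
  have hEG : E ⊆ G := fun z hz => (mem_inter.1 (mem_sdiff.1 hz).1).2
  -- h1
  have h1 : hat (hf A b) G (insert x S') ≤ hf A b (K ∪ E) := by
    have h := hat_le (f := hf A b) (S := insert x S') (union_subset hKG hEG)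
    have h' : insert x S' ∪ (K ∪ E) = K ∪ E := by
      apply union_eq_right.2
      apply insert_subset
      · by_cases hxK : x ∈ K
        · exact mem_union_left _ hxK
        · exact mem_union_right _ (mem_sdiff.2 ⟨mem_inter.2 ⟨hxR, hxG⟩, hxK⟩)
      · exact subset_union_left.trans subset_union_left
    rwa [h'] at h
  have h2 : hat (hf A q) G1 S ≤ hf A q R' := by
    have h := hat_le (f := hf A q) (S := S) (K := R') (sdiff_subset.trans hRG1)
    have h' : S ∪ R' = R' := by
      apply union_eq_right.2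
      intro s hs
      refine mem_sdiff.2 ⟨mem_union_left _ (mem_insert_of_mem hs), ?_⟩
      intro hsE
      have := mem_sdiff.1 hsE
      exact this.2 (mem_union_left _ (hSG (mem_inter.2 ⟨hs, (mem_inter.1 this.1).2⟩)))
    rwa [h'] at h
  have hcK : (K ∪ E).card = K.card + E.card :=
    card_union_of_disjoint disjoint_sdiff
  have hcR : R.card = R'.card + E.card := by
    rw [hR']
    have := card_sdiff_add_card_eq_card hER
    omega
  set X0 := (cl A E \ b) \ cl A K with hX0
  have hc1 : (cl A (K ∪ E) \ b).card ≤ (cl A K \ b).card + X0.card := by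
    refine le_trans (card_le_card ?_) (card_union_le _ _)
    intro y hy
    obtain ⟨hy1, hy2⟩ := mem_sdiff.1 hy
    by_cases hyK : y ∈ cl A K
    · exact mem_union_left _ (mem_sdiff.2 ⟨hyK, hy2⟩)
    · refine mem_union_right _ (mem_sdiff.2 ⟨mem_sdiff.2 ⟨?_, hy2⟩, hyK⟩)
      rw [mem_cl] at hy1 hyK ⊢
      obtain ⟨z, hz, hzy⟩ := hy1
      rcases mem_union.1 hz with hz | hz
      · exact absurd ⟨z, hz, hzy⟩ hyK
      · exact ⟨z, hz, hzy⟩
  have hc2 : (cl A R' \ q).card + X0.card ≤ (cl A R \ q).card := by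
    rw [← card_union_of_disjoint]
    · apply card_le_card
      apply union_subset
      · exact sdiff_subset_sdiff (cl_mono sdiff_subset) (le_refl _)
      · intro y hy
        obtain ⟨hy1, hy2⟩ := mem_sdiff.1 hy
        obtain ⟨hy3, hy4⟩ := mem_sdiff.1 hy1
        exact mem_sdiff.2 ⟨cl_mono hER hy3, fun h => hy4 (hqb h)⟩
    · rw [disjoint_left]
      intro y hy hy'
      obtain ⟨hy1, hy2⟩ := mem_sdiff.1 hy'
      obtain ⟨hy3, hy4⟩ := mem_sdiff.1 hy1
      obtain ⟨z, hz, hzy⟩ := mem_cl.1 (mem_sdiff.1 hy).1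
      obtain ⟨hzR, hzE⟩ := mem_sdiff.1 hz
      rcases mem_union.1 (hG1 (hRG1 hzR)) with hzG | hzB
      · by_cases hzK : z ∈ K
        · exact hy2 (mem_cl.2 ⟨z, hzK, hzy⟩)
        · exact hzE (mem_sdiff.2 ⟨mem_inter.2 ⟨hzR, hzG⟩, hzK⟩)
      · exact hy4 (hBb (mem_cl.2 ⟨z, hzB, hzy⟩))
  rw [hR0e, hK0e]
  have e1 : hf A b (K ∪ E) = ((cl A (K ∪ E) \ b).card : ℤ) - (K ∪ E).card := rfl
  have e2 : hf A b K = ((cl A K \ b).card : ℤ) - K.card := rfl
  have e3 : hf A q R = ((cl A R \ q).card : ℤ) - R.card := rfl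
  have e4 : hf A q R' = ((cl A R' \ q).card : ℤ) - R'.card := rfl
  omega

/-- step (3) -/
lemma hall_inter {A : V → V → Prop} {β υ : V → Finset V}
    (hrow : ∀ a, ∀ T ⊆ υ a \ β a, T.card ≤ (cl A T \ cl A (β a)).card)
    (I : Finset V) : ∀ T : Finset V, (∀ x ∈ T, ∀ s ∈ I, x ∈ υ s) →
      (∀ x ∈ T, ∃ s ∈ I, x ∉ β s) →
      T.card ≤ (cl A T \ univ.filter (fun y => ∀ s ∈ I, y ∈ cl A (β s))).card := by
  induction I using Finset.induction_on with
  | empty =>
    intro T _ h2
    have : T = ∅ := by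
      apply eq_empty_of_forall_notMem
      intro x hx
      obtain ⟨s, hs, _⟩ := h2 x hx
      exact absurd hs (notMem_empty s)
    subst this
    simp
  | insert a I _ ih =>
    intro T h1 h2
    have hT1 : (T.filter (fun x => x ∉ β a)).card ≤
        (cl A (T.filter (fun x => x ∉ β a)) \ cl A (β a)).card := by
      apply hrow
      intro x hx
      obtain ⟨hx1, hx2⟩ := mem_filter.1 hx
      exact mem_sdiff.2 ⟨h1 x hx1 a (mem_insert_self a I), hx2⟩
    have hT2 := ih (T.filter (fun x => x ∈ β a))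
      (fun x hx s hs => h1 x (mem_filter.1 hx).1 s (mem_insert_of_mem hs))
      (fun x hx => by
        obtain ⟨hx1, hx2⟩ := mem_filter.1 hx
        obtain ⟨s, hs, hsx⟩ := h2 x hx1
        rcases mem_insert.1 hs with rfl | hs
        · exact absurd hx2 hsx
        · exact ⟨s, hs, hsx⟩)
    have hcard : T.card = (T.filter (fun x => x ∈ β a)).card +
        (T.filter (fun x => x ∉ β a)).card := by
      rw [card_filter_add_card_filter_not]
    rw [hcard]
    refine le_trans (add_le_add hT2 hT1) ?_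
    rw [← card_union_of_disjoint]
    · apply card_le_card
      apply union_subset
      · intro y hy
        obtain ⟨hy1, hy2⟩ := mem_sdiff.1 hy
        refine mem_sdiff.2 ⟨cl_mono (filter_subset _ _) hy1, ?_⟩
        intro h
        apply hy2
        rw [mem_filter] at h ⊢
        exact ⟨mem_univ _, fun s hs => h.2 s (mem_insert_of_mem hs)⟩
      · intro y hy
        obtain ⟨hy1, hy2⟩ := mem_sdiff.1 hy
        refine mem_sdiff.2 ⟨cl_mono (filter_subset _ _) hy1, ?_⟩
        intro h
        exact hy2 ((mem_filter.1 h).2 a (mem_insert_self a I))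
    · rw [disjoint_left]
      intro y hy hy'
      obtain ⟨z, hz, hzy⟩ := mem_cl.1 (mem_sdiff.1 hy).1
      exact (mem_sdiff.1 hy').2 (mem_cl.2 ⟨z, (mem_filter.1 hz).2, hzy⟩)

/-- initial segments -/
noncomputable def seg (G : Finset V) (k : ℕ) : Finset V :=
  G.filter (fun x => ((Fintype.equivFin V x : Fin _) : ℕ) < k)

lemma seg_subset (G : Finset V) (k : ℕ) : seg G k ⊆ G := filter_subset _ _

lemma seg_zero (G : Finset V) : seg G 0 = ∅ := by
  simp [seg]

lemma seg_card (G : Finset V) : seg G (Fintype.card V) = G := by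
  unfold seg
  apply filter_true_of_mem
  intro x _
  exact (Fintype.equivFin V x).2

lemma seg_succ_mem {G : Finset V} {k : ℕ} (hk : k < Fintype.card V)
    (hx : (Fintype.equivFin V).symm ⟨k, hk⟩ ∈ G) :
    seg G (k + 1) = insert ((Fintype.equivFin V).symm ⟨k, hk⟩) (seg G k) := by
  ext z
  simp only [seg, mem_filter, mem_insert]
  constructor
  · rintro ⟨hz, hz2⟩
    by_cases h : ((Fintype.equivFin V z : Fin _) : ℕ) = k
    · left
      rw [Equiv.eq_symm_apply]
      exact Fin.ext h
    · right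
      exact ⟨hz, by omega⟩
  · rintro (h | ⟨hz, hz2⟩)
    · subst h
      refine ⟨hx, ?_⟩
      simp
    · exact ⟨hz, by omega⟩

lemma seg_succ_notMem {G : Finset V} {k : ℕ} (hk : k < Fintype.card V)
    (hx : (Fintype.equivFin V).symm ⟨k, hk⟩ ∉ G) :
    seg G (k + 1) = seg G k := by
  ext z
  simp only [seg, mem_filter]
  constructor
  · rintro ⟨hz, hz2⟩
    refine ⟨hz, ?_⟩
    by_contra h
    have h' : ((Fintype.equivFin V z : Fin _) : ℕ) = k := by omega
    apply hx
    have : (Fintype.equivFin V).symm ⟨k, hk⟩ = z := by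
      rw [Equiv.symm_apply_eq]
      exact (Fin.ext h').symm
    rwa [this]
  · rintro ⟨hz, hz2⟩
    exact ⟨hz, by omega⟩

/-- **The core lemma.** -/
theorem core {A : V → V → Prop} {β υ : V → Finset V}
    (hβυ : ∀ a, β a ⊆ υ a)
    (hrow : ∀ a, ∀ T ⊆ υ a \ β a, T.card ≤ (cl A T \ cl A (β a)).card)
    (hcol : ∀ x, ∃ σ : V → V, (∀ a, x ∈ υ a \ β a → A a (σ a) ∧ ∀ s, A s (σ a) → x ∈ υ s) ∧
      Set.InjOn σ {a | x ∈ υ a \ β a}) :
    ∑ a, (((cl A (υ a)).card : ℤ) - (cl A (β a)).card - ((υ a).card - (β a).card)) ≤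
      ∑ a, (((icap A (fun s => cl A (υ s)) a).card : ℤ) -
        (icap A (fun s => cl A (β s)) a).card -
        ((icap A υ a).card - (icap A β a).card)) := by
  -- abbreviations
  let G : V → Finset V := fun a => υ a \ β a
  let P : V → Finset V := icap A υ
  let Q : V → Finset V := icap A β
  let P' : V → Finset V := icap A (fun s => cl A (υ s))
  let Q' : V → Finset V := icap A (fun s => cl A (β s))
  let G1 : V → Finset V := fun a => P a \ Q a
  let f : V → Finset V → ℤ := fun a => hf A (cl A (β a))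
  let F : V → Finset V → ℤ := fun a => hf A (Q' a)
  have hQP : ∀ a, Q a ⊆ P a := by
    intro a y hy
    rw [mem_icap] at hy ⊢
    exact fun s hs => hβυ s (hy s hs)
  have hQP' : ∀ a, Q' a ⊆ P' a := by
    intro a y hy
    rw [mem_icap] at hy ⊢
    exact fun s hs => cl_mono (hβυ s) (hy s hs)
  have hfnn : ∀ a, ∀ K ⊆ G a, 0 ≤ f a K := by
    intro a K hK
    have := hrow a K hK
    show 0 ≤ hf A (cl A (β a)) K
    unfold hf
    omega
  have hFnn : ∀ a, ∀ K ⊆ G1 a, 0 ≤ F a K := by
    intro a K hK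
    have h := hall_inter (A := A) (β := β) (υ := υ) hrow (univ.filter (fun s => A s a)) K
      (fun x hx s hs => by
        have := (mem_sdiff.1 (hK hx)).1
        rw [mem_icap] at this
        exact this s (mem_filter.1 hs).2)
      (fun x hx => by
        have := (mem_sdiff.1 (hK hx)).2
        rw [mem_icap] at this
        push_neg at this
        obtain ⟨s, hs, hs'⟩ := this
        exact ⟨s, mem_filter.2 ⟨mem_univ _, hs⟩, hs'⟩)
    have e : (univ.filter (fun y => ∀ s ∈ univ.filter (fun s => A s a), y ∈ cl A (β s)))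
        = Q' a := by
      ext y
      simp only [mem_filter, mem_univ, true_and]
      rw [mem_icap]
    rw [e] at h
    show 0 ≤ hf A (Q' a) K
    unfold hf
    omega
  -- totals of rows
  have hfG : ∀ a, f a (G a) = ((cl A (υ a)).card : ℤ) - (cl A (β a)).card -
      ((υ a).card - (β a).card) := by
    intro a
    show hf A (cl A (β a)) (υ a \ β a) = _
    unfold hf
    have e : cl A (υ a \ β a) \ cl A (β a) = cl A (υ a) \ cl A (β a) := by
      ext y
      rw [mem_sdiff, mem_sdiff]
      constructor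
      · rintro ⟨h1, h2⟩
        exact ⟨cl_mono sdiff_subset h1, h2⟩
      · rintro ⟨h1, h2⟩
        refine ⟨?_, h2⟩
        rw [mem_cl] at h1 h2 ⊢
        obtain ⟨x, hx, hxy⟩ := h1
        exact ⟨x, mem_sdiff.2 ⟨hx, fun h => h2 ⟨x, h, hxy⟩⟩, hxy⟩
    rw [e, cast_card_sdiff (cl_mono (hβυ a)), cast_card_sdiff (hβυ a)]
  have hFG : ∀ a, F a (G1 a) ≤ ((P' a).card : ℤ) - (Q' a).card - ((P a).card - (Q a).card) := by
    intro a
    show hf A (Q' a) (P a \ Q a) ≤ _
    unfold hf
    have e : cl A (P a \ Q a) \ Q' a ⊆ P' a \ Q' a := by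
      apply sdiff_subset_sdiff _ (le_refl _)
      intro y hy
      obtain ⟨x, hx, hxy⟩ := mem_cl.1 hy
      have hx' := (mem_sdiff.1 hx).1
      rw [mem_icap] at hx' ⊢
      exact fun s hs => mem_cl.2 ⟨x, hx' s hs, hxy⟩
    have := card_le_card e
    rw [cast_card_sdiff (hQP a)]
    have h2 := cast_card_sdiff (R := ℤ) (hQP' a)
    have h3 : ((cl A (P a \ Q a) \ Q' a).card : ℤ) ≤ ((P' a \ Q' a).card : ℤ) := by
      exact_mod_cast this
    linarith
  -- telescoping
  let m : V → ℕ → ℤ := fun a k =>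
    hat (f a) (G a) (seg (G a) (k + 1)) - hat (f a) (G a) (seg (G a) k)
  let M : V → ℕ → ℤ := fun a k =>
    hat (F a) (G1 a) (seg (G1 a) (k + 1)) - hat (F a) (G1 a) (seg (G1 a) k)
  have hm : ∀ a, ∑ k ∈ range (Fintype.card V), m a k = f a (G a) := by
    intro a
    have := Finset.sum_range_sub (fun k => hat (f a) (G a) (seg (G a) k)) (Fintype.card V)
    show ∑ k ∈ range (Fintype.card V), (hat (f a) (G a) (seg (G a) (k + 1)) -
      hat (f a) (G a) (seg (G a) k)) = _
    rw [this, seg_card, seg_zero, hat_full, hat_empty (hfnn a) (hf_empty _ _)]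
    ring
  have hM : ∀ a, ∑ k ∈ range (Fintype.card V), M a k = F a (G1 a) := by
    intro a
    have := Finset.sum_range_sub (fun k => hat (F a) (G1 a) (seg (G1 a) k)) (Fintype.card V)
    show ∑ k ∈ range (Fintype.card V), (hat (F a) (G1 a) (seg (G1 a) (k + 1)) -
      hat (F a) (G1 a) (seg (G1 a) k)) = _
    rw [this, seg_card, seg_zero, hat_full, hat_empty (hFnn a) (hf_empty _ _)]
    ring
  have hMnn : ∀ a k, 0 ≤ M a k := by
    intro a k
    have : seg (G1 a) k ⊆ seg (G1 a) (k + 1) := by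
      intro z hz
      obtain ⟨h1, h2⟩ := mem_filter.1 hz
      exact mem_filter.2 ⟨h1, by omega⟩
    have := hat_mono (f := F a) this (seg_subset _ _)
    show 0 ≤ hat (F a) (G1 a) (seg (G1 a) (k + 1)) - hat (F a) (G1 a) (seg (G1 a) k)
    linarith
  -- the exchange
  have hex : ∀ k ∈ range (Fintype.card V), ∑ a, m a k ≤ ∑ a, M a k := by
    intro k hk
    have hk' : k < Fintype.card V := mem_range.1 hk
    set x := (Fintype.equivFin V).symm ⟨k, hk'⟩ with hx
    obtain ⟨σ, hσ, hinj⟩ := hcol x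
    have h1 : ∑ a, m a k = ∑ a ∈ univ.filter (fun a => x ∈ G a), m a k := by
      rw [sum_filter]
      apply sum_congr rfl
      intro a _
      split_ifs with h
      · rfl
      · show hat (f a) (G a) (seg (G a) (k + 1)) - hat (f a) (G a) (seg (G a) k) = 0
        rw [seg_succ_notMem hk' h]
        ring
    have h2 : ∑ a ∈ univ.filter (fun a => x ∈ G a), m a k ≤
        ∑ a ∈ univ.filter (fun a => x ∈ G a), M (σ a) k := by
      apply sum_le_sum
      intro a ha
      have hxa : x ∈ G a := (mem_filter.1 ha).2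
      obtain ⟨hA, hs⟩ := hσ a hxa
      have hxG1 : x ∈ G1 (σ a) := by
        refine mem_sdiff.2 ⟨mem_icap.2 hs, ?_⟩
        intro h
        exact (mem_sdiff.1 hxa).2 (mem_icap.1 h a hA)
      show hat (f a) (G a) (seg (G a) (k + 1)) - hat (f a) (G a) (seg (G a) k) ≤
        hat (F (σ a)) (G1 (σ a)) (seg (G1 (σ a)) (k + 1)) -
          hat (F (σ a)) (G1 (σ a)) (seg (G1 (σ a)) k)
      rw [seg_succ_mem hk' hxa, seg_succ_mem hk' hxG1]
      refine key (B := β a) ?_ (le_refl _) ?_ hxa hxG1 (seg_subset _ _) ?_ (seg_subset _ _)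
      · intro y hy
        exact mem_icap.1 hy a hA
      · intro y hy
        have hy' := mem_icap.1 (mem_sdiff.1 hy).1 a hA
        by_cases h : y ∈ β a
        · exact mem_union_right _ h
        · exact mem_union_left _ (mem_sdiff.2 ⟨hy', h⟩)
      · intro y hy
        obtain ⟨hy1, hy2⟩ := mem_inter.1 hy
        exact mem_filter.2 ⟨hy2, (mem_filter.1 hy1).2⟩
    have h3 : ∑ a ∈ univ.filter (fun a => x ∈ G a), M (σ a) k ≤ ∑ a, M a k := by
      have hinj' : Set.InjOn σ (univ.filter (fun a => x ∈ G a) : Finset V) := by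
        intro a ha b hb hab
        apply hinj
        · exact (mem_filter.1 (mem_coe.1 ha)).2
        · exact (mem_filter.1 (mem_coe.1 hb)).2
        · exact hab
      rw [← sum_image (f := fun a => M a k) hinj']
      exact sum_le_sum_of_subset_of_nonneg (subset_univ _) (fun a _ _ => hMnn a k)
    linarith
  calc ∑ a, (((cl A (υ a)).card : ℤ) - (cl A (β a)).card - ((υ a).card - (β a).card))
      = ∑ a, f a (G a) := by
        apply sum_congr rfl
        intro a _
        rw [hfG a]
    _ = ∑ a, ∑ k ∈ range (Fintype.card V), m a k := by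
        apply sum_congr rfl
        intro a _
        rw [hm a]
    _ = ∑ k ∈ range (Fintype.card V), ∑ a, m a k := sum_comm
    _ ≤ ∑ k ∈ range (Fintype.card V), ∑ a, M a k := sum_le_sum hex
    _ = ∑ a, ∑ k ∈ range (Fintype.card V), M a k := sum_comm
    _ = ∑ a, F a (G1 a) := by
        apply sum_congr rfl
        intro a _
        rw [hM a]
    _ ≤ _ := by
        apply sum_le_sum
        intro a _
        exact hFG a

end Vale.Agent.P038.H378
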